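import Mathlib

/-!
# Row 242 (S0480, Fujita freeness): the concrete world

`Chart n`  : a standard smooth presentation `C[z_1..z_n, x_1..x_c]/(f_1..f_c)` with
             `det (d f / d x)` invertible; its points are the zero set in `C^(n+c)`.
`Model n K`: a smooth complete variety with function field `K`, given by its closed points,
             one chart around each closed point, a local equation `lam p` of the divisor `L`.
`Model.Conclusion m` : `K_X + m L` is generated at every closed point.

Packages: SCH builds a `Model` from the scheme of S0480 and transports `Conclusion`;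
ALG, ANAD, LOC, LIFT, CORE prove `Model.main`.
-/

set_option autoImplicit false

noncomputable section

namespace Claimed.Agent.R242

open MvPolynomial

/-- A concrete etale coordinate chart: variables `inl i` = coordinates `z_i`,
variables `inr j` = auxiliary `x_j`, relations `rel j`. -/
structure Chart (n : ℕ) where
  c : ℕ
  rel : Fin c → MvPolynomial (Fin n ⊕ Fin c) ℂ
  jinv : MvPolynomial (Fin n ⊕ Fin c) ℂ
  jac_unit : jinv * (Matrix.of fun i j => pderiv (Sum.inr j) (rel i)).det - 1
      ∈ Ideal.span (Set.range rel)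

namespace Chart

variable {n : ℕ} (C : Chart n)

/-- the ideal of relations -/
def ideal : Ideal (MvPolynomial (Fin n ⊕ Fin C.c) ℂ) := Ideal.span (Set.range C.rel)

/-- the closed points of the chart: a closed subset of `C^(n+c)` -/
def pts : Set (Fin n ⊕ Fin C.c → ℂ) := {w | ∀ i, eval w (C.rel i) = 0}

/-- the etale coordinate map to `C^n` -/
def proj (w : Fin n ⊕ Fin C.c → ℂ) : Fin n → ℂ := fun i => w (Sum.inl i)

end Chart

/-- A smooth complete model of the field `K` with a Cartier divisor `L`. -/
structure Model (n : ℕ) (K : Type) [Field K] [Algebra ℂ K] where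
  /-- closed points -/
  Pt : Type
  /-- a chart around each closed point -/
  chart : Pt → Chart n
  /-- the images in `K` of the variables of the chart -/
  gen : (p : Pt) → (Fin n ⊕ Fin (chart p).c → K)
  gen_ker : ∀ p (P : MvPolynomial (Fin n ⊕ Fin (chart p).c) ℂ),
    aeval (gen p) P = 0 ↔ P ∈ (chart p).ideal
  gen_frac : ∀ p (a : K), ∃ P Q : MvPolynomial (Fin n ⊕ Fin (chart p).c) ℂ,
    aeval (gen p) Q ≠ 0 ∧ a * aeval (gen p) Q = aeval (gen p) P
  /-- the point itself, as a point of its chart; its coordinates `z_i` vanish -/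
  base : (p : Pt) → (Fin n ⊕ Fin (chart p).c → ℂ)
  base_mem : ∀ p, base p ∈ (chart p).pts
  base_coord : ∀ p i, base p (Sum.inl i) = 0
  /-- local equation of `L` (a frame of `O(-L)`, valid on the whole chart) -/
  lam : Pt → K
  lam_ne : ∀ p, lam p ≠ 0
  /-- the derivations `d/dz_j` of the chart at `p` -/
  der : Pt → Fin n → Derivation ℂ K K
  der_coord : ∀ p i j, der p j (gen p (Sum.inl i)) = if i = j then 1 else 0

namespace Model

variable {n : ℕ} {K : Type} [Field K] [Algebra ℂ K] (M : Model n K)

/-- the coordinate ring of the chart at `p`, inside `K` -/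
def ring (p : M.Pt) : Subalgebra ℂ K :=
  (aeval (R := ℂ) (M.gen p)).range

/-- `a` is regular at the point `w` of the chart at `p` -/
def RegAtPt (p : M.Pt) (w : Fin n ⊕ Fin (M.chart p).c → ℂ) (a : K) : Prop :=
  ∃ P Q : MvPolynomial (Fin n ⊕ Fin (M.chart p).c) ℂ,
    eval w Q ≠ 0 ∧ a * aeval (M.gen p) Q = aeval (M.gen p) P

/-- `a` is regular and nonzero at the point `w` of the chart at `p` -/
def UnitAtPt (p : M.Pt) (w : Fin n ⊕ Fin (M.chart p).c → ℂ) (a : K) : Prop :=
  ∃ P Q : MvPolynomial (Fin n ⊕ Fin (M.chart p).c) ℂ,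
    eval w Q ≠ 0 ∧ eval w P ≠ 0 ∧ a * aeval (M.gen p) Q = aeval (M.gen p) P

/-- `a ∈ O_p` -/
def RegAt (p : M.Pt) (a : K) : Prop := M.RegAtPt p (M.base p) a

/-- `a ∈ O_p^*` -/
def UnitAt (p : M.Pt) (a : K) : Prop := M.UnitAtPt p (M.base p) a

/-- the set underlying `H^0(X, jL)` -/
def IsSec (j : ℕ) (s : K) : Prop := ∀ p, M.RegAt p (s * M.lam p ^ j)

/-- Jacobian of the coordinates at `x` with respect to the coordinates at `p` -/
def jac (x p : M.Pt) : K :=
  (Matrix.of fun i j => M.der p j (M.gen x (Sum.inl i))).det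

/-- The axioms that make `(X, L)` complete and `L` ample. -/
structure IsAmple : Prop where
  /-- `lam p` is a frame on the whole chart at `p` -/
  sec_ring : ∀ p j s, M.IsSec j s → s * M.lam p ^ j ∈ M.ring p
  /-- finite base point free families in all large degrees (at all points of all charts) -/
  bpf : ∃ j₀ : ℕ, ∀ j, j₀ ≤ j → ∃ (N : ℕ) (τ : Fin N → K), (∀ i, M.IsSec j (τ i)) ∧
    ∀ p w, w ∈ (M.chart p).pts → ∃ i, M.UnitAtPt p w (τ i * M.lam p ^ j)
  /-- the coordinates of the chart at `p` are quotients of sections of `kL` -/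
  coords : ∀ p, ∃ (k : ℕ) (σ : Fin (n + 1) → K), 1 ≤ k ∧ (∀ i, M.IsSec k (σ i)) ∧
    (∃ e ∈ M.ring p, e * (σ 0 * M.lam p ^ k) = 1) ∧
    ∀ i : Fin n, M.gen p (Sum.inl i) * σ 0 = σ i.succ
  /-- completeness (valuative criterion) -/
  complete : ∀ V : ValuationSubring K, (∀ c : ℂ, algebraMap ℂ K c ∈ V) →
    ∃ p, ∀ a, M.RegAt p a → a ∈ V

/-- `K_X + mL` is generated at every closed point: `h dz_1 ∧ .. ∧ dz_n` (coordinates at `x`)
is a global section that does not vanish at `x`. -/
def Conclusion (m : ℕ) : Prop :=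
  ∀ x : M.Pt, ∃ h : K, M.UnitAt x (h * M.lam x ^ m) ∧
    ∀ p, M.RegAt p (h * M.jac x p * M.lam p ^ m)

end Model

end Claimed.Agent.R242

end

/-! equation lemmas of this file, cited once here (rule 6) -/
namespace Claimed.Agent.R242

theorem r242_eqcite_Model : True := by
  have := @Claimed.Agent.R242.Model.RegAt.eq_1
  have := @Claimed.Agent.R242.Model.RegAtPt.eq_1
  have := @Claimed.Agent.R242.Model.UnitAt.eq_1
  have := @Claimed.Agent.R242.Model.Conclusion.eq_1
  have := @Claimed.Agent.R242.Model.UnitAtPt.eq_1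
  have := @Claimed.Agent.R242.Chart.pts.eq_1
  have := @Claimed.Agent.R242.Model.ring.eq_1
  have := @Claimed.Agent.R242.Model.jac.eq_1
  have := @Claimed.Agent.R242.Chart.ideal.eq_1
  have := @Claimed.Agent.R242.Model.IsSec.eq_1
  have := @Claimed.Agent.R242.Chart.proj.eq_1
  trivial

end Claimed.Agent.R242
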