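/-
R242 / ModelMain : the main theorem for models, from  LOC + CORE (`loc_main`),  ANAD (`M.locReal`),  ALG-X (`Model.resHyp`),  LIFT (`lift_top32`, `lift_topLT`).
Owner: helper73.  Glue only, everything proved here.
-/
import Claimed.Agent.R242.Loc.Main
import Claimed.Agent.R242.Lift.Top

set_option autoImplicit false

namespace Claimed.Agent.R242

theorem model_main_pf {n : ℕ} {K : Type} [Field K] [Algebra ℂ K] (M : Model n K)
    (hM : M.IsAmple) (hn : 1 ≤ n) (m : ℕ) (hm : n + 1 ≤ m) : M.Conclusion m := by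
  intro x
  obtain ⟨j₀, h⟩ := M.resHyp hM
  obtain ⟨e₀, b₀, hres⟩ := h (j₀ + 1) (Nat.le_succ _) (Nat.succ_le_succ (Nat.zero_le _))
  exact loc_main (M.locReal hM x) hn m hm (M.GenAt x m) (j₀ + 1) e₀ b₀ (Nat.succ_le_succ (Nat.zero_le _)) hres
    (lift_top32 M hM hn x m hm) (fun m' s hs F => lift_topLT M hM hn x m hm m' s hs F)

end Claimed.Agent.R242
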