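import Claimed.Agent.R242.Model
import Claimed.Agent.R242.Sch.Main
import Claimed.Agent.R242.ModelMain
import Claimed.Statements.S0480

/-!
# Row 242: top level glue

`sch_adapter` (package SCH) and `model_main` (all other packages) give S0480.
-/

set_option autoImplicit false

namespace Claimed.Agent.R242

open Claims Claims.C0408
open AlgebraicGeometry CategoryTheory Order

/-- PACKAGE SCH. -/
theorem sch_adapter (X : Scheme.{0}) [IsIntegral X] [IsLocallyNoetherian X]
    (π : X ⟶ Spec (CommRingCat.of ℂ)) (n : ℕ) (hn : 1 ≤ n) [IsProper π]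
    [SmoothOfRelativeDimension n π] (L : X → ℤ) (hL : IsWeilDivisor L) (hample : IsAmpleDiv L) :
    letI := fnFieldAlgebra π
    ∃ M : Model n X.functionField, M.IsAmple ∧
      ∀ m : ℕ, M.Conclusion m → AdjointGloballyGenerated π n (m • L) :=
  sch_adapter_pf X π n L hL hample

/-- MAIN THEOREM FOR MODELS (packages ALG, ANAD, SCV, TAY, LM, LOC, LIFT, CORE). -/
theorem model_main {n : ℕ} {K : Type} [Field K] [Algebra ℂ K] (M : Model n K)
    (hM : M.IsAmple) (hn : 1 ≤ n) (m : ℕ) (hm : n + 1 ≤ m) : M.Conclusion m :=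
  model_main_pf M hM hn m hm

theorem s0480 (X : Scheme.{0}) [IsIntegral X] [IsLocallyNoetherian X]
    (π : X ⟶ Spec (CommRingCat.of ℂ)) (n : ℕ) (hn : 1 ≤ n) [IsProper π]
    [SmoothOfRelativeDimension n π] (L : X → ℤ) (hL : IsWeilDivisor L) (hample : IsAmpleDiv L)
    (m : ℕ) (hm : n + 1 ≤ m) :
    AdjointGloballyGenerated π n (m • L) := by
  letI := fnFieldAlgebra π
  obtain ⟨M, hM, h⟩ := sch_adapter X π n hn L hL hample
  exact h m (model_main M hM hn m hm)

end Claimed.Agent.R242
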